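import Vale.Agent.P180.H765.B1
import Vale.Agent.P180.H768.Brauer
import Vale.Agent.P179.H234.C0

/-!
# The bound of `B1.lean` in the language of relative traces and the Brauer map
-/

namespace Vale.Agent.P180.H765

open Subgroup Finset

open scoped Classical

section

variable {p : ℕ} [hp : Fact p.Prime] {k : Type*} [Field k] [CharP k p]
  {G : Type} [Group G] [Fintype G]

omit [Fintype G] in
theorem conjBy_eq_cj (g : G) (x : MonoidAlgebra k G) : P179C.conjBy g x = cj k G g x := by
  rw [cj_eq]; rfl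

omit [CharP k p] in
/-- a relative trace in the sense of `P180` is one in the sense of `P179` -/
theorem isRelTrace_of_tr {e a : MonoidAlgebra k G} {Q : Subgroup G} (ha : a ∈ Fix (cj k G) Q)
    (hea : e = tr (cj k G) Q ⊤ a) : P179C.IsRelTrace e Q := by
  refine ⟨a, fun d hd => ?_, ?_⟩
  · rw [conjBy_eq_cj]; exact ha d hd
  · rw [finsum_eq_sum_of_fintype, hea]
    rw [tr_eq_sum (ι := G ⧸ Q) ha (fun c => (⟨c.out, trivial⟩ : (⊤ : Subgroup G))) ?_]
    · exact Finset.sum_congr rfl fun c _ => (conjBy_eq_cj _ _).symm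
    · constructor
      · intro c c' h
        rw [QuotientGroup.eq, Subgroup.mem_subgroupOf] at h
        have h1 : (c.out : G)⁻¹ * c'.out ∈ Q := h
        rw [← QuotientGroup.eq, QuotientGroup.out_eq', QuotientGroup.out_eq'] at h1
        exact h1
      · intro y
        obtain ⟨x, rfl⟩ := QuotientGroup.mk_surjective y
        refine ⟨QuotientGroup.mk (x : G), ?_⟩
        rw [QuotientGroup.eq, Subgroup.mem_subgroupOf]
        change ((QuotientGroup.mk (x : G) : G ⧸ Q).out : G)⁻¹ * x ∈ Q
        rw [← QuotientGroup.eq, QuotientGroup.out_eq']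

/-- `P180` blocks are `P179` blocks -/
theorem isBlock_of {e : MonoidAlgebra k G} (he : IsBlockOf (⊤ : Subgroup G) e) :
    P179C.IsBlock e := by
  have h := isBlock_iff.2 he
  exact ⟨h.central, h.idem, h.ne_zero, fun c hc hcc hce => h.primitive c hc hcc hce⟩

include p hp in
/-- a block which is a relative trace from `Q` and is not killed by the Brauer map has defect
group `Q` -/
theorem isDefectGroup_of {e a : MonoidAlgebra k G} {Q : Subgroup G} (hQ : IsPGroup p Q)
    (ha : a ∈ Fix (cj k G) Q) (hea : e = tr (cj k G) Q ⊤ a) (hbr : H768.Gd.br Q e ≠ 0) :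
    P179C.IsDefectGroup e Q := by
  refine ⟨isRelTrace_of_tr ha hea, fun D hD hDQ => ?_⟩
  obtain ⟨c, hc, hec⟩ : ∃ c ∈ centralizer (Q : Set G), e.coeff c ≠ 0 := by
    by_contra hcon
    push Not at hcon
    apply hbr
    ext x
    rw [H768.Gd.br_coeff]
    split_ifs with h
    · rw [hcon x h]; rfl
    · rfl
  have hQc : Q ≤ centralizer {c} := by
    intro x hx
    rw [mem_centralizer_singleton_iff]
    exact mem_centralizer_iff.1 hc x hx
  obtain ⟨g, hg⟩ := P179C.zab_of_relTrace p e D hD c hec Q hQ hQc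
  have hcard : Nat.card Q ≤ Nat.card D := by
    let f : Q → D := fun r => ⟨g⁻¹ * r * g, hg r r.2⟩
    refine Nat.card_le_card_of_injective f fun a b hab => ?_
    have h1 : g⁻¹ * (a : G) * g = g⁻¹ * (b : G) * g := congrArg Subtype.val hab
    exact Subtype.ext (mul_left_cancel (mul_right_cancel h1))
  exact (Subgroup.eq_of_le_of_card_ge hDQ hcard).ge

end

section

variable {p : ℕ} [hp : Fact p.Prime] {k : Type*} [Field k] [IsAlgClosed k] [CharP k p]
  (red : integralClosure ℤ ℂ →+* k) {G : Type} [Group G] [Fintype G]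

/-- **Brauer-Feit bound for abelian defect groups**, for the data of `OneBd`. -/
theorem exists_card_inL_le_of_tr {e a : MonoidAlgebra k G} {Q : Subgroup G}
    (he : IsBlockOf (⊤ : Subgroup G) e) (hQ : IsPGroup p Q)
    (hab : ∀ a ∈ Q, ∀ b ∈ Q, a * b = b * a) (ha : a ∈ Fix (cj k G) Q)
    (hea : e = tr (cj k G) Q ⊤ a) (hbr : H768.Gd.br Q e ≠ 0) :
    ∃ l : (G → k) → k, P179Y.BP p Q l ∧ P179Y.IsHomCF l ∧
      (∀ z : G → k, P179C.IsCF z → l z = P179C.centralChar e (P179Y.mkF z)) ∧
      l (fun g => e.coeff g) = 1 ∧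
      Nat.card {χ : P179P.Irr G // P179Y.InL red l χ.1} ≤ Nat.card Q ^ 2 := by
  have hB := isBlock_of he
  obtain ⟨l, hl, hlz, h⟩ := exists_card_inL_le (p := p) red hB
    (isDefectGroup_of hQ ha hea hbr) hab
  have hb : P179C.IsCF (fun g => e.coeff g) := (P179C.mem_center_iff _).1 hB.1
  refine ⟨l, hl, hl.isHomCF' hQ, hlz, ?_, h⟩
  rw [hlz _ hb, P179Y.mkF_coeff]
  exact P179C.centralChar_self e hB

/-- **Brauer-Feit bound for abelian defect groups**, from the Brauer pair alone. -/
theorem b1 {D : Subgroup G} {l : (G → k) → k} (hl : P179Y.BP p D l) (hD : IsPGroup p D)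
    (hab : D ≤ centralizer (D : Set G))
    (hT : ¬ p ∣ (centralizer (D : Set G)).relIndex (P179Y.stabT D l)) :
    (univ.filter fun χ : P179P.Irr G => P179Y.InL red l χ.1).card ≤ Nat.card D ^ 2 := by
  have hl' := hl.isHomCF' hD
  obtain ⟨B, hB, hBl⟩ := P179C.homBlockStmt (k := k) (G := G) (P179Y.homOf hl')
  have hlz : ∀ z : G → k, P179C.IsCF z → l z = P179C.centralChar B (P179Y.mkF z) := by
    intro z hz
    have h1 := hBl ⟨P179Y.mkF z, P179Y.mkF_mem hz⟩
    rw [P179Y.homOf_apply] at h1
    rw [← h1]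
    congr 1
    funext x
    exact (P179Y.coeff_mkF z x).symm
  have h := card_inL_le red hB hl hD hab hT hlz
  rwa [Nat.card_eq_fintype_card, Fintype.card_subtype] at h

end

end Vale.Agent.P180.H765
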