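import Vale.Agent.P179.H526.FrobB
import Vale.Agent.P179.H526.Inert
import Vale.Agent.P179.H166.Osima
import Vale.Agent.P179.H524.N3a

/-!
# Blocks with an abelian defect group `D` have at most `|D| ^ 2` irreducible characters
-/

namespace Vale.Agent.P180.H765

open Subgroup Finset P179H524 P179C P179A P179P P179Y P179T

open P179X (IrrB)

open scoped Classical

section

variable {p : ℕ} [hp : Fact p.Prime] {k : Type*} [Field k] [IsAlgClosed k] [CharP k p]
  (red : integralClosure ℤ ℂ →+* k) {G : Type} [Group G] [Fintype G]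

omit [IsAlgClosed k] in
/-- a central idempotent is a combination of the reductions of the functions `zb p θ` -/
theorem exists_comb_zb {B : MonoidAlgebra k G}
    (hB : B ∈ Subalgebra.center k (MonoidAlgebra k G)) (hBB : B * B = B) :
    ∃ c : Irr G → k, (fun g => B.coeff g) = ∑ θ : Irr G, c θ • (fun t => red (zb p θ t)) := by
  have hb : IsCF (fun g => B.coeff g) := (P179C.mem_center_iff _).1 hB
  have ha : IsCF (fun g => B.coeff g⁻¹) := by
    intro g x
    have e : (g * x * g⁻¹)⁻¹ = g * x⁻¹ * g⁻¹ := by group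
    simp only [e]
    exact hb g x⁻¹
  obtain ⟨c, hc⟩ := exists_comb p red ha
  refine ⟨c, ?_⟩
  funext t
  rw [Finset.sum_apply]
  simp only [Pi.smul_apply, smul_eq_mul]
  by_cases ht : ¬ p ∣ orderOf t
  · have ht' : ¬ p ∣ orderOf t⁻¹ := by rwa [orderOf_inv]
    have h1 := hc t⁻¹ ht'
    rw [inv_inv] at h1
    rw [← h1]
    refine Finset.sum_congr rfl fun θ _ => ?_
    rw [zb, if_pos ht, redC_of_mem red (θ.integral t⁻¹)]
    rfl
  · have h0 : B.coeff t = 0 := osima_g p B hB hBB t (not_not.1 ht)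
    rw [h0]
    symm
    refine Finset.sum_eq_zero fun θ _ => ?_
    rw [zb, if_neg ht, map_zero, mul_zero]

/-- a character of the block which is not killed -/
theorem exists_zb_ne {B : MonoidAlgebra k G} (hB : IsBlock B) {l : (G → k) → k}
    (hadd : ∀ a b, l (a + b) = l a + l b) (hsmul : ∀ (c : k) a, l (c • a) = c * l a)
    (hlz : ∀ z : G → k, IsCF z → l z = centralChar B (mkF z)) :
    ∃ θ : Irr G, l (fun t => red (zb p θ t)) ≠ 0 := by
  obtain ⟨c, hc⟩ := exists_comb_zb (p := p) red hB.1 hB.2.1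
  have hb : IsCF (fun g => B.coeff g) := (P179C.mem_center_iff _).1 hB.1
  have h1 : l (fun g => B.coeff g) = 1 := by
    rw [hlz _ hb, mkF_coeff]
    exact centralChar_self B hB
  let L : (G → k) →ₗ[k] k :=
    { toFun := l, map_add' := hadd, map_smul' := fun c a => by rw [hsmul]; rfl }
  have hL : ∀ a, L a = l a := fun _ => rfl
  by_contra hcon
  push Not at hcon
  rw [hc, ← hL, map_sum] at h1
  have h2 : ∑ θ : Irr G, L (c θ • (fun t => red (zb p θ t))) = 0 := by
    refine Finset.sum_eq_zero fun θ _ => ?_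
    rw [map_smul, hL, hcon, smul_zero]
  rw [h2] at h1
  exact zero_ne_one h1

omit [IsAlgClosed k] in
/-- the norm on the `p`-regular elements is at most one -/
theorem mm_self_le (θ : Irr G) : (mm p θ.1 θ.1).re ≤ 1 := by
  have h1 : mm p θ.1 θ.1 = ((Nat.card G : ℝ)⁻¹ *
      ∑ t ∈ univ.filter (fun s : G => ¬ p ∣ orderOf s), Complex.normSq (θ.1 t) : ℝ) := by
    rw [mm, rsum_eq]
    push_cast
    congr 1
    refine Finset.sum_congr rfl fun t _ => ?_
    rw [Irr.inv_eq_conj, Complex.mul_conj]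
  have h2 : ((Nat.card G : ℝ)⁻¹ * ∑ t : G, Complex.normSq (θ.1 t) : ℝ) = 1 := by
    have h3 := row_orth θ θ
    rw [if_pos rfl] at h3
    have h4 : (∑ g : G, θ.1 g * θ.1 g⁻¹) = ((∑ t : G, Complex.normSq (θ.1 t) : ℝ) : ℂ) := by
      push_cast
      refine Finset.sum_congr rfl fun t _ => ?_
      rw [Irr.inv_eq_conj, Complex.mul_conj]
    rw [h4] at h3
    have h5 : (∑ t : G, Complex.normSq (θ.1 t) : ℝ) = (Nat.card G : ℝ) := by
      rw [Nat.card_eq_fintype_card]; exact_mod_cast h3
    rw [h5]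
    exact inv_mul_cancel₀ (by exact_mod_cast Nat.card_pos.ne')
  rw [h1, Complex.ofReal_re, ← h2]
  refine mul_le_mul_of_nonneg_left ?_ (inv_nonneg.2 (Nat.cast_nonneg _))
  exact Finset.sum_le_sum_of_subset_of_nonneg (Finset.filter_subset _ _)
    fun t _ _ => Complex.normSq_nonneg _

/-- **Brauer-Feit bound for abelian defect groups.** -/
theorem card_inL_le {B : MonoidAlgebra k G} (hB : IsBlock B) {D : Subgroup G}
    {l : (G → k) → k} (hl : BP p D l) (hD : IsPGroup p D) (hab : D ≤ centralizer (D : Set G))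
    (hT : ¬ p ∣ (centralizer (D : Set G)).relIndex (stabT D l))
    (hlz : ∀ z : G → k, IsCF z → l z = centralChar B (mkF z)) :
    Nat.card {χ : Irr G // InL red l χ.1} ≤ Nat.card D ^ 2 := by
  obtain ⟨θ, hθ⟩ := exists_zb_ne (p := p) red hB hl.add hl.smul hlz
  have hD0 : (0 : ℝ) < Nat.card D := by exact_mod_cast Nat.card_pos
  -- each pairing is a nonzero integer over `|D|`
  have key : ∀ η : Irr G, InL red l η.1 →
      1 / (Nat.card D : ℝ) ^ 2 ≤ Complex.normSq (mm p η.1 θ.1) := by
    intro η hη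
    obtain ⟨c, hc⟩ := mm_int red hl hD hab hT (stA p G) η θ hη
    obtain ⟨X, hX, hX2⟩ := om_zb (p := p) red η θ
    have hcf : IsCF (fun t => red (zb p θ t)) := fun g x => congrArg red (zb_isCF p θ g x)
    have hX0 : red X ≠ 0 := by
      rw [hX2, hη _ hcf]
      exact hθ
    have hm0 : mm p η.1 θ.1 ≠ 0 := by
      intro h0
      rw [h0, mul_zero] at hX
      have h1 : (X : ℂ) = 0 := (mul_eq_zero.1 hX).resolve_right η.one_ne_zero
      have h2 : X = 0 := Subtype.ext h1
      rw [h2, map_zero] at hX0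
      exact hX0 rfl
    have hc0 : c ≠ 0 := by
      rintro rfl
      apply hm0
      rw [Int.cast_zero] at hc
      exact (mul_eq_zero.1 hc).resolve_left (by exact_mod_cast Nat.card_pos.ne')
    have h1 : (Nat.card D : ℝ) ^ 2 * Complex.normSq (mm p η.1 θ.1) = (c : ℝ) ^ 2 := by
      have h2 := congrArg Complex.normSq hc
      rw [Complex.normSq_mul, Complex.normSq_natCast, Complex.normSq_intCast] at h2
      rw [pow_two, pow_two, h2]
    rw [div_le_iff₀ (by positivity), mul_comm, h1]
    have h3 : (1 : ℤ) ≤ c ^ 2 := by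
      have : 0 < c ^ 2 := by positivity
      omega
    exact_mod_cast h3
  -- the sum of the squares
  have hsum : ∑ η : Irr G, Complex.normSq (mm p η.1 θ.1) ≤ 1 := by
    have h1 := mm_mul p θ θ
    have h2 : ∀ η : Irr G, mm p θ.1 η.1 * mm p η.1 θ.1 =
        ((Complex.normSq (mm p η.1 θ.1) : ℝ) : ℂ) := by
      intro η
      rw [← mm_conj p η θ, Complex.normSq_eq_conj_mul_self]
    rw [Finset.sum_congr rfl fun η _ => h2 η, ← Complex.ofReal_sum] at h1
    have h3 := mm_self_le (p := p) θ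
    rw [← h1, Complex.ofReal_re] at h3
    exact h3
  have h4 : (Nat.card {χ : Irr G // InL red l χ.1} : ℝ) * (1 / (Nat.card D : ℝ) ^ 2) ≤ 1 := by
    refine le_trans ?_ hsum
    have h5 : (Nat.card {χ : Irr G // InL red l χ.1} : ℝ) * (1 / (Nat.card D : ℝ) ^ 2) =
        ∑ η ∈ (univ : Finset (Irr G)).filter (fun η => InL red l η.1), 1 / (Nat.card D : ℝ) ^ 2 := by
      rw [Finset.sum_const, nsmul_eq_mul, Nat.card_eq_fintype_card, Fintype.card_subtype]
    rw [h5]
    refine le_trans (Finset.sum_le_sum fun η hη => key η (Finset.mem_filter.1 hη).2) ?_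
    exact Finset.sum_le_sum_of_subset_of_nonneg (Finset.filter_subset _ _)
      fun t _ _ => Complex.normSq_nonneg _
  have h6 : (Nat.card {χ : Irr G // InL red l χ.1} : ℝ) ≤ (Nat.card D : ℝ) ^ 2 := by
    rw [mul_one_div, div_le_one (by positivity)] at h4
    exact h4
  exact_mod_cast h6

/-- **Brauer-Feit bound for abelian defect groups**, in terms of the block. -/
theorem exists_card_inL_le {B : MonoidAlgebra k G} (hB : IsBlock B) {D : Subgroup G}
    (hD : IsDefectGroup B D) (hab : ∀ a ∈ D, ∀ b ∈ D, a * b = b * a) :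
    ∃ l : (G → k) → k, BP p D l ∧ (∀ z : G → k, IsCF z → l z = centralChar B (mkF z)) ∧
      Nat.card {χ : Irr G // InL red l χ.1} ≤ Nat.card D ^ 2 := by
  obtain ⟨hDp, l, hl, hlz⟩ := exists_BP_of_block (p := p) B hB D hD
  refine ⟨l, hl, hlz, card_inL_le red hB hl hDp ?_ (hT_of_block hB hD hDp hab hl hlz) hlz⟩
  intro x hx
  rw [mem_centralizer_iff]
  intro y hy
  exact hab y hy x hx

include p hp in
/-- **Brauer-Feit bound for abelian defect groups**, for the characters in a block. -/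
theorem card_irrB_le {B : MonoidAlgebra k G} (hB : IsBlock B) {D : Subgroup G}
    (hD : IsDefectGroup B D) (hab : ∀ a ∈ D, ∀ b ∈ D, a * b = b * a) :
    (IrrB red B).card ≤ Nat.card D ^ 2 := by
  obtain ⟨l, hl, hlz, h⟩ := exists_card_inL_le (p := p) red hB hD hab
  refine le_trans ?_ h
  have h1 : (IrrB red B).card = Nat.card {χ // χ ∈ IrrB red B} := by
    rw [Nat.card_eq_fintype_card, Fintype.card_coe]
  rw [h1]
  have h2 : ∀ χ : {χ // χ ∈ IrrB red B}, IsIrrChar χ.1 ∧ CharInBlock red χ.1 B := by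
    intro χ
    have h3 := χ.2
    unfold P179X.IrrB at h3
    rw [mem_filter] at h3
    exact ⟨P179X.mem_Irr.1 h3.1, h3.2⟩
  let f : {χ // χ ∈ IrrB red B} → {χ : Irr G // InL red l χ.1} := fun χ =>
    ⟨⟨χ.1, (h2 χ).1⟩, (inL_iff red hB hlz ⟨χ.1, (h2 χ).1⟩).2 (h2 χ).2⟩
  refine Nat.card_le_card_of_injective f fun a b hab => Subtype.ext ?_
  exact congrArg (fun x : {χ : Irr G // InL red l χ.1} => x.1.1) hab

end

end Vale.Agent.P180.H765
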